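import Vale.Agent.H20.OTDefs

/-!
# Discretisation of a coupling (P074, ROW G)
-/

namespace Vale.Agent.H62

open MeasureTheory

/-- A measurable map with values in a finite set splits a probability space into finitely many
cells of positive mass (up to a null set). -/
theorem exists_cells {Ω : Type*} [MeasurableSpace Ω] (π : Measure Ω) [IsProbabilityMeasure π]
    {C : Type*} (P : Ω → C) (F : Finset C) (hF : ∀ ω, P ω ∈ F) :
    ∃ (N : ℕ) (c : Fin (N + 1) → C), Function.Injective c ∧ (∀ i, 0 < π (P ⁻¹' {c i})) ∧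
      ∀ᵐ ω ∂π, ∃ i, P ω = c i := by
  classical
  let I : Finset C := F.filter (fun c => 0 < π (P ⁻¹' {c}))
  have hae : ∀ᵐ ω ∂π, P ω ∈ I := by
    have hnull : π (⋃ c ∈ (F.filter (fun c => ¬ 0 < π (P ⁻¹' {c})) : Finset C), P ⁻¹' {c}) = 0 := by
      refine le_antisymm ((measure_biUnion_finset_le _ _).trans (le_of_eq ?_)) zero_le
      refine Finset.sum_eq_zero ?_
      intro c hc
      have hc' := (Finset.mem_filter.mp hc).2
      simpa using hc'
    rw [ae_iff]
    refine measure_mono_null ?_ hnull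
    intro ω hω
    have hω' : P ω ∉ I := hω
    simp only [I, Finset.mem_filter, not_and] at hω'
    simp only [Set.mem_iUnion, Set.mem_preimage, Set.mem_singleton_iff, Finset.mem_filter,
      exists_prop]
    exact ⟨P ω, ⟨hF ω, hω' (hF ω)⟩, rfl⟩
  have hne : I.Nonempty := by
    by_contra h
    rw [Finset.not_nonempty_iff_eq_empty] at h
    have : ∀ᵐ ω ∂π, False := by
      filter_upwards [hae] with ω hω
      rw [h] at hω
      simp at hω
    rw [Filter.eventually_false_iff_eq_bot, ae_eq_bot] at this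
    exact (IsProbabilityMeasure.ne_zero π) this
  obtain ⟨N, hN⟩ : ∃ N, I.card = N + 1 :=
    Nat.exists_eq_succ_of_ne_zero (Finset.card_ne_zero.mpr hne)
  let eqv := I.equivFinOfCardEq hN
  refine ⟨N, fun i => (eqv.symm i).1, ?_, ?_, ?_⟩
  · intro i j hij
    exact eqv.symm.injective (Subtype.ext hij)
  · intro i
    have := (eqv.symm i).2
    exact (Finset.mem_filter.mp this).2
  · filter_upwards [hae] with ω hω
    refine ⟨eqv ⟨P ω, hω⟩, ?_⟩
    simp

/-- A measure is the sum of its restrictions to finitely many disjoint cells covering almost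
everything. -/
theorem sum_restrict_cells {Ω : Type*} [MeasurableSpace Ω] (π : Measure Ω) {ι : Type*}
    [Countable ι] (C : ι → Set Ω) (hC : ∀ i, MeasurableSet (C i))
    (hd : Pairwise (Function.onFun Disjoint C)) (hcov : ∀ᵐ ω ∂π, ∃ i, ω ∈ C i) :
    Measure.sum (fun i => π.restrict (C i)) = π := by
  rw [← Measure.restrict_iUnion hd hC]
  exact Measure.restrict_eq_self_of_ae_mem (by simpa using hcov)

/-- Transport bound for a discretisation along cells. -/
theorem W2_le_of_cells {d : ℕ} {Ω : Type*} [MeasurableSpace Ω] (π : Measure Ω)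
    [IsProbabilityMeasure π] (X : Ω → EuclideanSpace ℝ (Fin d)) (hX : Measurable X) {N : ℕ}
    (C : Fin (N + 1) → Set Ω) (hC : ∀ i, MeasurableSet (C i))
    (hd : Pairwise (Function.onFun Disjoint C)) (hcov : ∀ᵐ ω ∂π, ∃ i, ω ∈ C i)
    (y : Fin (N + 1) → EuclideanSpace ℝ (Fin d)) (δ : ℝ) (hδ : 0 ≤ δ)
    (hclose : ∀ i, ∀ᵐ ω ∂π, ω ∈ C i → ‖X ω - y i‖ ≤ δ) :
    Vale.Agent.H20.W2 (π.map X)
      (∑ i, ENNReal.ofReal ((π (C i)).toReal) • Measure.dirac (y i)) ≤ ENNReal.ofReal δ := by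
  have hsum := sum_restrict_cells π C hC hd hcov
  set γ : Measure (EuclideanSpace ℝ (Fin d) × EuclideanSpace ℝ (Fin d)) :=
    Measure.sum (fun i => (π.restrict (C i)).map (fun ω => (X ω, y i))) with hγ
  have hfst : γ.fst = π.map X := by
    rw [hγ, Measure.fst_sum]
    have : ∀ i, ((π.restrict (C i)).map (fun ω => (X ω, y i))).fst = (π.restrict (C i)).map X :=
      fun i => Measure.fst_map_prodMk measurable_const
    simp only [this]
    rw [← Measure.map_sum hX.aemeasurable, hsum]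
  have hsnd : γ.snd = ∑ i, ENNReal.ofReal ((π (C i)).toReal) • Measure.dirac (y i) := by
    rw [hγ, Measure.snd_sum, Measure.sum_fintype]
    refine Finset.sum_congr rfl ?_
    intro i _
    rw [Measure.snd_map_prodMk hX, Measure.map_const, Measure.restrict_apply_univ,
      ENNReal.ofReal_toReal (measure_ne_top π _)]
  have hcost : ∫⁻ p, ENNReal.ofReal (‖p.1 - p.2‖ ^ 2) ∂γ ≤ ENNReal.ofReal (δ ^ 2) := by
    have hmeas : Measurable (fun p : EuclideanSpace ℝ (Fin d) × EuclideanSpace ℝ (Fin d) =>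
        ENNReal.ofReal (‖p.1 - p.2‖ ^ 2)) := by fun_prop
    rw [hγ, lintegral_sum_measure, tsum_fintype]
    have hle : ∀ i, ∫⁻ p, ENNReal.ofReal (‖p.1 - p.2‖ ^ 2)
        ∂((π.restrict (C i)).map (fun ω => (X ω, y i))) ≤ ENNReal.ofReal (δ ^ 2) * π (C i) := by
      intro i
      rw [lintegral_map hmeas (hX.prodMk measurable_const), ← setLIntegral_const]
      refine lintegral_mono_ae ?_
      rw [ae_restrict_iff' (hC i)]
      filter_upwards [hclose i] with ω hω hmem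
      exact ENNReal.ofReal_le_ofReal (pow_le_pow_left₀ (norm_nonneg _) (hω hmem) 2)
    refine (Finset.sum_le_sum fun i _ => hle i).trans (le_of_eq ?_)
    rw [← Finset.mul_sum]
    have h1 : ∑ i, π (C i) = 1 := by
      have := congrArg (fun m : Measure Ω => m Set.univ) hsum
      simp only [Measure.sum_apply _ MeasurableSet.univ, Measure.restrict_apply_univ,
        measure_univ, tsum_fintype] at this
      exact this
    rw [h1, mul_one]
  unfold Vale.Agent.H20.W2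
  have h2 : (⨅ ρ : Measure (EuclideanSpace ℝ (Fin d) × EuclideanSpace ℝ (Fin d)),
      ⨅ (_ : ρ.fst = π.map X ∧
        ρ.snd = ∑ i, ENNReal.ofReal ((π (C i)).toReal) • Measure.dirac (y i)),
      ∫⁻ p, ENNReal.ofReal (‖p.1 - p.2‖ ^ 2) ∂ρ) ≤ ENNReal.ofReal (δ ^ 2) :=
    (iInf_le_of_le γ (iInf_le_of_le ⟨hfst, hsnd⟩ le_rfl)).trans hcost
  refine (ENNReal.rpow_le_rpow h2 (by norm_num)).trans (le_of_eq ?_)
  rw [ENNReal.ofReal_rpow_of_nonneg (by positivity) (by norm_num)]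
  congr 1
  rw [← Real.sqrt_eq_rpow, Real.sqrt_sq hδ]

/-- Cost bound for a discretisation along cells (Minkowski in `L²`). -/
theorem cost_le_of_cells {d : ℕ}
    (π : Measure (EuclideanSpace ℝ (Fin d) × EuclideanSpace ℝ (Fin d))) [IsProbabilityMeasure π]
    {N : ℕ} (C : Fin (N + 1) → Set (EuclideanSpace ℝ (Fin d) × EuclideanSpace ℝ (Fin d)))
    (hC : ∀ i, MeasurableSet (C i)) (hd : Pairwise (Function.onFun Disjoint C))
    (hcov : ∀ᵐ ω ∂π, ∃ i, ω ∈ C i) (y z : Fin (N + 1) → EuclideanSpace ℝ (Fin d)) (δ : ℝ)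
    (hδ : 0 ≤ δ) (hclose : ∀ i, ∀ᵐ p ∂π, p ∈ C i → ‖y i - z i‖ ≤ ‖p.1 - p.2‖ + δ) :
    ENNReal.ofReal (∑ i, (π (C i)).toReal * ‖y i - z i‖ ^ 2) ≤
      ((∫⁻ p, ENNReal.ofReal (‖p.1 - p.2‖ ^ 2) ∂π) ^ ((1 : ℝ) / 2) + ENNReal.ofReal δ) ^ 2 := by
  have hsum := sum_restrict_cells π C hC hd hcov
  set f : EuclideanSpace ℝ (Fin d) × EuclideanSpace ℝ (Fin d) → ENNReal :=
    fun p => ENNReal.ofReal ‖p.1 - p.2‖ with hf
  set g : EuclideanSpace ℝ (Fin d) × EuclideanSpace ℝ (Fin d) → ENNReal :=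
    fun _ => ENNReal.ofReal δ with hg
  have hfm : Measurable f := by fun_prop
  have hgm : Measurable g := measurable_const
  -- step 1 and 2
  have h1 : ENNReal.ofReal (∑ i, (π (C i)).toReal * ‖y i - z i‖ ^ 2) ≤
      ∑ i, ∫⁻ p in C i, (f p + g p) ^ 2 ∂π := by
    rw [ENNReal.ofReal_sum_of_nonneg (fun i _ => by positivity)]
    refine Finset.sum_le_sum ?_
    intro i _
    rw [ENNReal.ofReal_mul ENNReal.toReal_nonneg, ENNReal.ofReal_toReal (measure_ne_top π _),
      mul_comm, ← setLIntegral_const]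
    refine lintegral_mono_ae ?_
    rw [ae_restrict_iff' (hC i)]
    filter_upwards [hclose i] with p hp hmem
    have h := hp hmem
    simp only [hf, hg]
    rw [← ENNReal.ofReal_add (norm_nonneg _) hδ, ← ENNReal.ofReal_pow (by positivity)]
    exact ENNReal.ofReal_le_ofReal (pow_le_pow_left₀ (norm_nonneg _) h 2)
  -- step 3
  have h3 : ∑ i, ∫⁻ p in C i, (f p + g p) ^ 2 ∂π = ∫⁻ p, (f p + g p) ^ 2 ∂π := by
    conv_rhs => rw [← hsum]
    rw [lintegral_sum_measure, tsum_fintype]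
  -- step 4
  have hmink := ENNReal.lintegral_Lp_add_le (μ := π) hfm.aemeasurable hgm.aemeasurable
    (p := 2) (by norm_num)
  have e1 : ∫⁻ p, (f + g) p ^ (2 : ℝ) ∂π = ∫⁻ p, (f p + g p) ^ 2 ∂π := by
    refine lintegral_congr ?_
    intro p
    rw [Pi.add_apply, ← ENNReal.rpow_natCast]
    norm_num
  have e2 : ∫⁻ p, f p ^ (2 : ℝ) ∂π = ∫⁻ p, ENNReal.ofReal (‖p.1 - p.2‖ ^ 2) ∂π := by
    refine lintegral_congr ?_
    intro p
    simp only [hf]
    rw [ENNReal.ofReal_pow (norm_nonneg _), ← ENNReal.rpow_natCast]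
    norm_num
  have e3 : (∫⁻ p, g p ^ (2 : ℝ) ∂π) ^ (1 / (2 : ℝ)) = ENNReal.ofReal δ := by
    simp only [hg]
    rw [lintegral_const, measure_univ, mul_one, ← ENNReal.rpow_mul]
    norm_num
  rw [e1, e2, e3] at hmink
  have e4 : ∫⁻ p, (f p + g p) ^ 2 ∂π = ((∫⁻ p, (f p + g p) ^ 2 ∂π) ^ (1 / (2 : ℝ))) ^ 2 := by
    rw [← ENNReal.rpow_natCast, ← ENNReal.rpow_mul]
    norm_num
  rw [h3] at h1
  refine h1.trans ?_
  rw [e4]
  exact pow_le_pow_left₀ zero_le hmink 2

/-- Shifting the `i`-th point by `θ * i` along a unit vector is injective unless `θ` lies in a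
finite set. -/
theorem shift_injective {E : Type*} [NormedAddCommGroup E] [InnerProductSpace ℝ E] (u : E)
    (hu : ‖u‖ = 1) {N : ℕ} (q : Fin (N + 1) → E) (θ : ℝ)
    (hθ : θ ∉ Set.range (fun ij : Fin (N + 1) × Fin (N + 1) =>
      inner ℝ (q ij.1 - q ij.2) u / (((ij.2 : ℕ) : ℝ) - ((ij.1 : ℕ) : ℝ)))) :
    Function.Injective (fun i : Fin (N + 1) => q i + (θ * ((i : ℕ) : ℝ)) • u) := by
  intro i j hij
  by_contra hne
  apply hθ
  refine ⟨(i, j), ?_⟩
  have hne' : (((j : ℕ) : ℝ) - ((i : ℕ) : ℝ)) ≠ 0 := by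
    intro h
    have h' : ((j : ℕ) : ℝ) = ((i : ℕ) : ℝ) := by linarith
    exact hne (Fin.ext (Nat.cast_injective h').symm)
  have h1 : q i - q j = (θ * (((j : ℕ) : ℝ) - ((i : ℕ) : ℝ))) • u := by
    have h2 : q i + (θ * ((i : ℕ) : ℝ)) • u = q j + (θ * ((j : ℕ) : ℝ)) • u := hij
    have h3 : q i - q j = (θ * ((j : ℕ) : ℝ)) • u - (θ * ((i : ℕ) : ℝ)) • u := by
      rw [sub_eq_sub_iff_add_eq_add, h2, add_comm]
    rw [h3, ← sub_smul]
    congr 1
    ring
  simp only
  rw [h1, inner_smul_left, real_inner_self_eq_norm_sq, hu]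
  simp only [conj_trivial, one_pow, mul_one]
  field_simp

/-- Finitely many points (two families) can be made distinct by the shifts `θ * i` along a unit
vector, with `θ` as small as we like. -/
theorem exists_shift {E : Type*} [NormedAddCommGroup E] [InnerProductSpace ℝ E] (u : E)
    (hu : ‖u‖ = 1) {N : ℕ} (q q' : Fin (N + 1) → E) (ε : ℝ) (hε : 0 < ε) :
    ∃ θ : ℝ, 0 < θ ∧ θ < ε ∧
      Function.Injective (fun i : Fin (N + 1) => q i + (θ * ((i : ℕ) : ℝ)) • u) ∧
      Function.Injective (fun i : Fin (N + 1) => q' i + (θ * ((i : ℕ) : ℝ)) • u) := by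
  have hfin : (Set.range (fun ij : Fin (N + 1) × Fin (N + 1) =>
      inner ℝ (q ij.1 - q ij.2) u / (((ij.2 : ℕ) : ℝ) - ((ij.1 : ℕ) : ℝ))) ∪
      Set.range (fun ij : Fin (N + 1) × Fin (N + 1) =>
      inner ℝ (q' ij.1 - q' ij.2) u / (((ij.2 : ℕ) : ℝ) - ((ij.1 : ℕ) : ℝ)))).Finite :=
    (Set.finite_range _).union (Set.finite_range _)
  obtain ⟨θ, hθ1, hθ2⟩ := ((Set.Ioo_infinite hε).sdiff hfin).nonempty
  refine ⟨θ, hθ1.1, hθ1.2, shift_injective u hu q θ ?_, shift_injective u hu q' θ ?_⟩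
  · exact fun h => hθ2 (Or.inl h)
  · exact fun h => hθ2 (Or.inr h)

/-- A measurable rounding index for a compact set: centres `e k ∈ Y` and a measurable index map
with values `≤ N₀` such that every point of `Y` is within `ε` of its centre. -/
theorem exists_rounding {E : Type*} [PseudoMetricSpace E] [MeasurableSpace E]
    [OpensMeasurableSpace E] {Y : Set E} (hYc : IsCompact Y) (hne : Y.Nonempty) (ε : ℝ)
    (hε : 0 < ε) :
    ∃ (N₀ : ℕ) (e : ℕ → E) (idx : E → ℕ), Measurable idx ∧ (∀ k, e k ∈ Y) ∧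
      (∀ x, idx x ≤ N₀) ∧ ∀ x ∈ Y, dist x (e (idx x)) < ε := by
  classical
  obtain ⟨t, htY, htfin, hcov⟩ := finite_cover_balls_of_compact hYc hε
  obtain ⟨x₁, hx₁⟩ := hne
  obtain ⟨x₀, hx₀t, -⟩ : ∃ x₀ ∈ t, x₁ ∈ Metric.ball x₀ ε := by
    have := hcov hx₁
    simpa only [Set.mem_iUnion, exists_prop] using this
  set l : List E := htfin.toFinset.toList with hl
  have hlmem : ∀ p, p ∈ l ↔ p ∈ t := by
    intro p
    rw [hl, Finset.mem_toList, Set.Finite.mem_toFinset]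
  set e : ℕ → E := fun k => l.getD k x₀ with he
  have het : ∀ k, e k ∈ t := by
    intro k
    rcases Nat.lt_or_ge k l.length with hk | hk
    · have : e k = l[k] := by simp [he, List.getD_eq_getElem?_getD, hk]
      rw [this]
      exact (hlmem _).mp (List.getElem_mem hk)
    · have : e k = x₀ := by simp [he, List.getD_eq_getElem?_getD, hk]
      rw [this]
      exact hx₀t
  refine ⟨l.length, e, SimpleFunc.nearestPtInd e l.length,
    (SimpleFunc.nearestPtInd e l.length).measurable, fun k => htY (het k),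
    fun x => SimpleFunc.nearestPtInd_le e l.length x, ?_⟩
  intro x hx
  obtain ⟨p, hpt, hxp⟩ : ∃ p ∈ t, x ∈ Metric.ball p ε := by
    have := hcov hx
    simpa only [Set.mem_iUnion, exists_prop] using this
  obtain ⟨k, hk, hkp⟩ := List.getElem_of_mem ((hlmem p).mpr hpt)
  have hek : e k = p := by simp [he, List.getD_eq_getElem?_getD, hk, hkp]
  have h := SimpleFunc.edist_nearestPt_le e x (Nat.le_of_lt hk)
  have h' : SimpleFunc.nearestPt e l.length x = e (SimpleFunc.nearestPtInd e l.length x) := rfl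
  rw [h', hek, edist_dist, edist_dist, ENNReal.ofReal_le_ofReal_iff dist_nonneg] at h
  rw [dist_comm]
  exact lt_of_le_of_lt h (by rw [dist_comm]; exact Metric.mem_ball.mp hxp)

/-- **ROW G**: discretisation of a coupling by matched atoms with injective site maps. -/
theorem exists_discretization {d : ℕ} (hd : 1 ≤ d) {Y : Set (EuclideanSpace ℝ (Fin d))}
    {R : ℝ} (hR : ∀ y ∈ Y, ‖y‖ ≤ R) (hYc : IsCompact Y)
    (μ ν : Measure (EuclideanSpace ℝ (Fin d))) [IsProbabilityMeasure μ] [IsProbabilityMeasure ν]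
    (hμ : ∀ᵐ y ∂μ, y ∈ Y) (hν : ∀ᵐ y ∂ν, y ∈ Y)
    (π : Measure (EuclideanSpace ℝ (Fin d) × EuclideanSpace ℝ (Fin d)))
    (h1 : π.fst = μ) (h2 : π.snd = ν) (δ : ℝ) (hδ : 0 < δ) :
    ∃ (N : ℕ) (w : Fin (N + 1) → ℝ) (y z : Fin (N + 1) → EuclideanSpace ℝ (Fin d)),
      (∀ i, 0 < w i) ∧ ∑ i, w i = 1 ∧ Function.Injective y ∧ Function.Injective z ∧
      (∀ i, ‖y i‖ ≤ R + δ) ∧ (∀ i, ‖z i‖ ≤ R + δ) ∧
      Vale.Agent.H20.W2 μ (∑ i, ENNReal.ofReal (w i) • Measure.dirac (y i)) ≤ ENNReal.ofReal δ ∧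
      Vale.Agent.H20.W2 ν (∑ i, ENNReal.ofReal (w i) • Measure.dirac (z i)) ≤ ENNReal.ofReal δ ∧
      ENNReal.ofReal (∑ i, w i * ‖y i - z i‖ ^ 2) ≤
        ((∫⁻ p, ENNReal.ofReal (‖p.1 - p.2‖ ^ 2) ∂π) ^ ((1 : ℝ) / 2) + ENNReal.ofReal δ) ^ 2 := by
  have hπ : IsProbabilityMeasure π := by
    constructor
    rw [← Measure.fst_univ, h1, measure_univ]
  have hYne : Y.Nonempty := by
    by_contra h
    rw [Set.not_nonempty_iff_eq_empty] at h
    rw [h] at hμ
    simp only [Set.mem_empty_iff_false, Filter.eventually_false_iff_eq_bot, ae_eq_bot] at hμ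
    exact (IsProbabilityMeasure.ne_zero μ) hμ
  obtain ⟨N₀, e, idx, hidx, heY, hidxle, hdist⟩ :=
    exists_rounding hYc hYne (δ / 4) (by positivity)
  set P : EuclideanSpace ℝ (Fin d) × EuclideanSpace ℝ (Fin d) → ℕ × ℕ :=
    fun p => (idx p.1, idx p.2) with hPdef
  have hP : Measurable P := (hidx.comp measurable_fst).prodMk (hidx.comp measurable_snd)
  obtain ⟨N, c, hcinj, hcpos, hccov⟩ := exists_cells π P
    (Finset.range (N₀ + 1) ×ˢ Finset.range (N₀ + 1)) (by
      intro p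
      simp only [hPdef, Finset.mem_product, Finset.mem_range]
      exact ⟨Nat.lt_succ_of_le (hidxle _), Nat.lt_succ_of_le (hidxle _)⟩)
  set C : Fin (N + 1) → Set (EuclideanSpace ℝ (Fin d) × EuclideanSpace ℝ (Fin d)) :=
    fun i => P ⁻¹' {c i} with hCdef
  have hC : ∀ i, MeasurableSet (C i) := fun i => hP (measurableSet_singleton _)
  have hd' : Pairwise (Function.onFun Disjoint C) := by
    intro i j hij
    exact Disjoint.preimage _ (Set.disjoint_singleton.mpr (hcinj.ne hij))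
  have hcov : ∀ᵐ p ∂π, ∃ i, p ∈ C i := hccov
  have hY1 : ∀ᵐ p ∂π, p.1 ∈ Y := by
    have : ∀ᵐ y ∂(π.map Prod.fst), y ∈ Y := by
      have h1' : π.map Prod.fst = μ := h1
      rw [h1']
      exact hμ
    exact ae_of_ae_map measurable_fst.aemeasurable this
  have hY2 : ∀ᵐ p ∂π, p.2 ∈ Y := by
    have : ∀ᵐ y ∂(π.map Prod.snd), y ∈ Y := by
      have h2' : π.map Prod.snd = ν := h2
      rw [h2']
      exact hν
    exact ae_of_ae_map measurable_snd.aemeasurable this
  set u : EuclideanSpace ℝ (Fin d) := EuclideanSpace.single (⟨0, hd⟩ : Fin d) (1 : ℝ) with hudef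
  have hu : ‖u‖ = 1 := by simp [hudef]
  set q : Fin (N + 1) → EuclideanSpace ℝ (Fin d) := fun i => e (c i).1 with hq
  set q' : Fin (N + 1) → EuclideanSpace ℝ (Fin d) := fun i => e (c i).2 with hq'
  obtain ⟨θ, hθ0, hθε, hinj, hinj'⟩ :=
    exists_shift u hu q q' (δ / (4 * ((N : ℝ) + 1))) (by positivity)
  have hshift : ∀ i : Fin (N + 1), ‖(θ * ((i : ℕ) : ℝ)) • u‖ ≤ δ / 4 := by
    intro i
    rw [norm_smul, hu, mul_one, Real.norm_eq_abs, abs_of_nonneg (by positivity)]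
    have hi : ((i : ℕ) : ℝ) ≤ (N : ℝ) := by exact_mod_cast Nat.lt_succ_iff.mp i.2
    have hN0 : (0 : ℝ) ≤ (N : ℝ) := Nat.cast_nonneg N
    have h3 : θ * ((i : ℕ) : ℝ) ≤ δ / (4 * ((N : ℝ) + 1)) * (N : ℝ) :=
      mul_le_mul hθε.le hi (Nat.cast_nonneg _) (by positivity)
    refine h3.trans ?_
    rw [div_mul_eq_mul_div, div_le_div_iff₀ (by positivity) (by norm_num)]
    nlinarith
  have hclose1 : ∀ i, ∀ᵐ p ∂π, p ∈ C i → ‖p.1 - q i‖ ≤ δ / 4 := by
    intro i
    filter_upwards [hY1] with p hp hmem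
    have hmem' : P p = c i := hmem
    have h3 : idx p.1 = (c i).1 := congrArg Prod.fst hmem'
    have h4 := hdist p.1 hp
    rw [h3, dist_eq_norm] at h4
    exact h4.le
  have hclose2 : ∀ i, ∀ᵐ p ∂π, p ∈ C i → ‖p.2 - q' i‖ ≤ δ / 4 := by
    intro i
    filter_upwards [hY2] with p hp hmem
    have hmem' : P p = c i := hmem
    have h3 : idx p.2 = (c i).2 := congrArg Prod.snd hmem'
    have h4 := hdist p.2 hp
    rw [h3, dist_eq_norm] at h4
    exact h4.le
  have hsum1 : ∑ i, π (C i) = 1 := by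
    have := congrArg (fun m : Measure (EuclideanSpace ℝ (Fin d) × EuclideanSpace ℝ (Fin d)) =>
      m Set.univ) (sum_restrict_cells π C hC hd' hcov)
    simp only [Measure.sum_apply _ MeasurableSet.univ, Measure.restrict_apply_univ,
      measure_univ, tsum_fintype] at this
    exact this
  refine ⟨N, fun i => (π (C i)).toReal, fun i => q i + (θ * ((i : ℕ) : ℝ)) • u,
    fun i => q' i + (θ * ((i : ℕ) : ℝ)) • u, ?_, ?_, hinj, hinj', ?_, ?_, ?_, ?_, ?_⟩
  · intro i
    exact ENNReal.toReal_pos (hcpos i).ne' (measure_ne_top _ _)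
  · rw [← ENNReal.toReal_sum (fun i _ => measure_ne_top _ _), hsum1, ENNReal.toReal_one]
  · intro i
    calc ‖q i + (θ * ((i : ℕ) : ℝ)) • u‖ ≤ ‖q i‖ + ‖(θ * ((i : ℕ) : ℝ)) • u‖ := norm_add_le _ _
      _ ≤ R + δ / 4 := add_le_add (hR _ (heY _)) (hshift i)
      _ ≤ R + δ := by linarith
  · intro i
    calc ‖q' i + (θ * ((i : ℕ) : ℝ)) • u‖ ≤ ‖q' i‖ + ‖(θ * ((i : ℕ) : ℝ)) • u‖ :=
          norm_add_le _ _
      _ ≤ R + δ / 4 := add_le_add (hR _ (heY _)) (hshift i)
      _ ≤ R + δ := by linarith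
  · have h := W2_le_of_cells π Prod.fst measurable_fst C hC hd' hcov
      (fun i => q i + (θ * ((i : ℕ) : ℝ)) • u) δ hδ.le (by
        intro i
        filter_upwards [hclose1 i] with p hp hmem
        have e1 : p.1 - (q i + (θ * ((i : ℕ) : ℝ)) • u) =
            (p.1 - q i) - (θ * ((i : ℕ) : ℝ)) • u := by abel
        rw [e1]
        calc ‖(p.1 - q i) - (θ * ((i : ℕ) : ℝ)) • u‖
            ≤ ‖p.1 - q i‖ + ‖(θ * ((i : ℕ) : ℝ)) • u‖ := norm_sub_le _ _
          _ ≤ δ / 4 + δ / 4 := add_le_add (hp hmem) (hshift i)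
          _ ≤ δ := by linarith)
    have h1' : π.map Prod.fst = μ := h1
    rw [h1'] at h
    exact h
  · have h := W2_le_of_cells π Prod.snd measurable_snd C hC hd' hcov
      (fun i => q' i + (θ * ((i : ℕ) : ℝ)) • u) δ hδ.le (by
        intro i
        filter_upwards [hclose2 i] with p hp hmem
        have e1 : p.2 - (q' i + (θ * ((i : ℕ) : ℝ)) • u) =
            (p.2 - q' i) - (θ * ((i : ℕ) : ℝ)) • u := by abel
        rw [e1]
        calc ‖(p.2 - q' i) - (θ * ((i : ℕ) : ℝ)) • u‖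
            ≤ ‖p.2 - q' i‖ + ‖(θ * ((i : ℕ) : ℝ)) • u‖ := norm_sub_le _ _
          _ ≤ δ / 4 + δ / 4 := add_le_add (hp hmem) (hshift i)
          _ ≤ δ := by linarith)
    have h2' : π.map Prod.snd = ν := h2
    rw [h2'] at h
    exact h
  · refine cost_le_of_cells π C hC hd' hcov _ _ δ hδ.le ?_
    intro i
    filter_upwards [hclose1 i, hclose2 i] with p hp1 hp2 hmem
    have e1 : (q i + (θ * ((i : ℕ) : ℝ)) • u) - (q' i + (θ * ((i : ℕ) : ℝ)) • u) =
        -(p.1 - q i) + (p.1 - p.2) + (p.2 - q' i) := by abel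
    rw [e1]
    calc ‖-(p.1 - q i) + (p.1 - p.2) + (p.2 - q' i)‖
        ≤ ‖-(p.1 - q i)‖ + ‖p.1 - p.2‖ + ‖p.2 - q' i‖ := norm_add₃_le
      _ ≤ δ / 4 + ‖p.1 - p.2‖ + δ / 4 := by
          rw [norm_neg]
          exact add_le_add (add_le_add (hp1 hmem) le_rfl) (hp2 hmem)
      _ ≤ ‖p.1 - p.2‖ + δ := by linarith

end Vale.Agent.H62
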